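import Mathlib.MeasureTheory.Group.FundamentalDomain
import Mathlib.Topology.Algebra.Group.Basic

/-!
P092: lattices as discrete subgroups of finite Haar covolume. Only definitions.
-/

open MeasureTheory

namespace Vale.Agent.P092L63

variable {G : Type} [Group G] [TopologicalSpace G] [MeasurableSpace G]

/-- `Γ` is a discrete subgroup of finite covolume with respect to the measure `μ` on `G`. -/
def HaarLattice (μ : Measure G) (Γ : Subgroup G) : Prop :=
  DiscreteTopology Γ ∧ covolume Γ G μ < ⊤

/-- The covolume is well defined: `Γ` has fundamental domains for the multiplication from the left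
and from the right, and all of them have the measure `covolume Γ G μ`. -/
def WellDef (μ : Measure G) (Γ : Subgroup G) : Prop :=
  (∃ F, IsFundamentalDomain Γ F μ) ∧ (∃ F, IsFundamentalDomain Γ.op F μ) ∧
    ∀ F, IsFundamentalDomain Γ F μ ∨ IsFundamentalDomain Γ.op F μ → μ F = covolume Γ G μ

end Vale.Agent.P092L63
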