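import Vale.Agent.P092GV.StG
import Mathlib.Topology.Algebra.Field

/-!
P092: local fields as non-discrete locally compact fields. Only a definition.
-/

namespace Vale.Agent.P092L63

open Vale.Agent.P092GV

/-- The topological group `G` is the group of `k`-points of a connected absolutely simple algebraic
group `𝔾` over a local field `k`, that is a non-discrete locally compact topological field. -/
inductive LocalPts (G : Type) [Group G] [TopologicalSpace G] : Prop
  | mk (k : Type) [Field k] [TopologicalSpace k] [IsTopologicalDivisionRing k] [T2Space k]
      [LocallyCompactSpace k] (nondisc : ¬ DiscreteTopology k)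
      (K : Type) [Field K] [Algebra k K] [IsAlgClosure k K] (n : ℕ) (𝔾 : Subgroup (GL (Fin n) K))
      (simple : AbsSimple k 𝔾) (e : G ≃ₜ* points k 𝔾) : LocalPts G

end Vale.Agent.P092L63
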