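import Vale.Agent.P092L63.Defs
import Vale.Agent.P092.H515.Lat
import Vale.Agent.P092GV.StG
import Vale.Agent.P092.UN.StT

/-!
P092: finite Haar covolume is equivalent to the existence of a finite invariant measure on the
quotient; groups with property (T) are unimodular.
-/

set_option linter.all false

open MeasureTheory MeasureTheory.Measure Set Topology Filter
open scoped ENNReal NNReal Pointwise

namespace Vale.Agent.P092L63

open Vale.Agent.P092 Vale.Agent.P092GV

theorem closed_points {k K : Type} [NontriviallyNormedField k] [Field K] [Algebra k K] {n : ℕ}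
    {𝔾 : Subgroup (GL (Fin n) K)} (h : AbsSimple k 𝔾) :
    IsClosed (points k 𝔾 : Set (GL (Fin n) k)) := by
  have ev : ∀ (g : GL (Fin n) k) (p : MvPolynomial (Fin n × Fin n) k),
      MvPolynomial.aeval (fun ij : Fin n × Fin n =>
        (Matrix.GeneralLinearGroup.map (algebraMap k K) g).1 ij.1 ij.2) p =
      algebraMap k K (MvPolynomial.eval (fun ij => g.1 ij.1 ij.2) p) := fun g p =>
    MvPolynomial.aeval_algebraMap_apply K (fun ij : Fin n × Fin n => g.1 ij.1 ij.2) p
  have e : (points k 𝔾 : Set (GL (Fin n) k)) =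
      ⋂ p ∈ vanish k 𝔾, {g | MvPolynomial.eval (fun ij => g.1 ij.1 ij.2) p = 0} := by
    ext g
    simp only [mem_iInter, mem_setOf_eq]
    refine ⟨fun hg p hp => (algebraMap k K).injective ?_, fun hg => h.closed _ fun p hp => ?_⟩
    · rw [← ev, map_zero]
      exact hp _ ⟨_, hg, fun _ _ => rfl⟩
    · rw [h.defined] at hp
      refine (Ideal.map_le_iff_le_comap.2 fun q hq => ?_ : _ ≤ RingHom.ker (MvPolynomial.eval _)) hp
      rw [Ideal.mem_comap, RingHom.mem_ker, MvPolynomial.eval_map, ← MvPolynomial.aeval_def, ev,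
        hg q hq, map_zero]
  rw [e]
  refine isClosed_biInter fun p _ => isClosed_eq ((MvPolynomial.continuous_eval p).comp ?_)
    continuous_const
  exact continuous_pi fun ij => (Units.continuous_val.matrix_elem ij.1 ij.2)

theorem top_of_pts {G : Type} [Group G] [TopologicalSpace G] (h : SimplePts G) :
    IsTopologicalGroup G ∧ LocallyCompactSpace G ∧ SecondCountableTopology G ∧ T2Space G := by
  obtain ⟨k, -, K, n, 𝔾, b, e⟩ := h
  have h1 : LocallyCompactSpace (Matrix (Fin n) (Fin n) k) :=
    inferInstanceAs (LocallyCompactSpace (Fin n → Fin n → k))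
  have h2 : SecondCountableTopology (Matrix (Fin n) (Fin n) k) :=
    inferInstanceAs (SecondCountableTopology (Fin n → Fin n → k))
  have h3 : SecondCountableTopology (Matrix (Fin n) (Fin n) k)ᵐᵒᵖ :=
    MulOpposite.opHomeomorph.symm.secondCountableTopology
  have h4 : SecondCountableTopology (GL (Fin n) k) :=
    Units.isEmbedding_embedProduct.secondCountableTopology
  have h5 : LocallyCompactSpace (points k 𝔾) := (closed_points b).locallyCompactSpace
  have h6 : SecondCountableTopology (points k 𝔾) := IsEmbedding.subtypeVal.secondCountableTopology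
  exact ⟨e.toHomeomorph.isInducing.topologicalGroup e,
    e.toHomeomorph.isClosedEmbedding.locallyCompactSpace, e.toHomeomorph.secondCountableTopology,
    e.toHomeomorph.isEmbedding.t2Space⟩

/-- A continuous homomorphism from a group with property (T) to the reals is trivial. -/
theorem hom_zero {G : Type} [Group G] [TopologicalSpace G] (h : UN.HasTC G) (φ : G → ℝ)
    (hc : Continuous φ) (hm : ∀ a b, φ (a * b) = φ a + φ b) (g : G) : φ g = 0 := by
  obtain ⟨Q, κ, hQ, hκ, h⟩ := h
  obtain ⟨M, hM⟩ := (hQ.insert g).exists_bound_of_continuousOn hc.continuousOn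
  have hM0 : 0 ≤ M := (norm_nonneg _).trans (hM g (mem_insert _ _))
  have h1 : φ 1 = 0 := by
    have := hm 1 1
    rw [mul_one] at this
    linarith
  obtain ⟨t, ht, htκ, ht1⟩ : ∃ t : ℝ, 0 < t ∧ t * M < κ ∧ t * M < 1 := by
    have hm : 0 < min κ 1 := lt_min hκ one_pos
    have : min κ 1 / (M + 1) * M < min κ 1 := by
      rw [div_mul_eq_mul_div, div_lt_iff₀ (by linarith)]
      nlinarith
    exact ⟨min κ 1 / (M + 1), by positivity, this.trans_le (min_le_left _ _),
      this.trans_le (min_le_right _ _)⟩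
  have hb : ∀ x ∈ insert g Q, ‖t * φ x‖ ≤ t * M := fun x hx => by
    rw [norm_mul, Real.norm_of_nonneg ht.le]
    exact mul_le_mul_of_nonneg_left (hM x hx) ht.le
  by_contra hg
  obtain ⟨x, hx, hlt⟩ := h ℂ (fun x v => Complex.exp (Complex.I * (t * φ x : ℝ)) * v)
    (fun x => ⟨fun a b => mul_add _ a b, fun c a => by simp only [smul_eq_mul]; ring⟩)
    (fun x v => by rw [norm_mul, Complex.norm_exp_I_mul_ofReal, one_mul])
    (fun v => by simp [h1])
    (fun x y v => by
      rw [hm, ← mul_assoc, ← Complex.exp_add]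
      congr 2
      push_cast
      ring)
    (fun v => by fun_prop)
    (fun v hv => by
      by_contra h0
      obtain ⟨m, hm⟩ := Complex.exp_eq_one_iff.1 (mul_right_cancel₀ h0 ((hv g).trans (one_mul v).symm))
      have e : t * φ g = m * (2 * Real.pi) := by
        have := congrArg Complex.im hm
        simpa using this
      have hm0 : m ≠ 0 := by
        rintro rfl
        simp [ht.ne', hg] at e
      have h2 : (1 : ℝ) ≤ |(m : ℝ)| := by exact_mod_cast Int.one_le_abs hm0
      have h3 := hb g (mem_insert _ _)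
      rw [e, Real.norm_eq_abs, abs_mul, abs_of_pos Real.two_pi_pos] at h3
      nlinarith [Real.pi_gt_three]) 1
  rw [norm_one, mul_one, mul_one] at hlt
  have := (hlt.trans Real.norm_exp_I_mul_ofReal_sub_one_le).trans (hb x (mem_insert_of_mem _ hx))
  linarith

section grp

variable {G : Type} [Group G] [TopologicalSpace G] [IsTopologicalGroup G] [LocallyCompactSpace G]
  [SecondCountableTopology G] [T2Space G]

theorem cont_mod : Continuous fun g : G => (modularCharacterFun g : ℝ) := by
  borelize G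
  obtain ⟨⟨f, hf⟩, hc, h0, h1⟩ : ∃ f : C(G, ℝ), HasCompactSupport f ∧ 0 ≤ f ∧ f 1 ≠ 0 :=
    exists_continuous_nonneg_pos 1
  have hi : ∫ x, f x ∂(haar : Measure G) ≠ 0 :=
    (hf.integral_pos_of_hasCompactSupport_nonneg_nonzero hc h0 h1).ne'
  have e : ∀ g : G, (modularCharacterFun g : ℝ) =
      (∫ y, f (y⁻¹ * g) ∂(haar : Measure G).inv) / ∫ x, f x ∂(haar : Measure G) := fun g => by
    rw [modularCharacterFun_eq_haarScalarFactor haar g, haarScalarFactor_eq_integral_div _ _ hf hc hi,
      integral_map (by fun_prop) hf.aestronglyMeasurable, inv_def,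
      integral_map (by fun_prop) (Continuous.aestronglyMeasurable (by fun_prop))]
    simp only [inv_inv]
  simp only [e]
  exact (continuous_integral_apply_inv_mul hf hc).div_const _

variable [MeasurableSpace G] [BorelSpace G] (μ : Measure G) [IsHaarMeasure μ]
  [IsMulRightInvariant μ] (Γ : Subgroup G)

theorem inv_op : SMulInvariantMeasure Γ.op G μ :=
  ⟨fun γ s _ => measure_preimage_mul_right μ (MulOpposite.unop γ.1) s⟩

theorem count_op [Countable Γ] : Countable Γ.op := (Subgroup.equivOp Γ).symm.injective.countable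

theorem wellDef [DiscreteTopology Γ] : WellDef μ Γ := by
  let _ : MeasurableSpace (G ⧸ Γ) := borel _
  have : BorelSpace (G ⧸ Γ) := ⟨rfl⟩
  have := H515.countable_lat Γ
  have := count_op Γ
  have := inv_op μ Γ
  have := H515.invInv_of_right μ
  have hl := H515.isFundamentalDomain_left Γ μ
  have hr := H515.isFundamentalDomain_op Γ μ
  refine ⟨⟨_, hl⟩, ⟨_, hr⟩, fun F hF => ?_⟩
  rcases hF with hF | hF
  · exact (hF.covolume_eq_volume μ).symm
  · rw [hl.covolume_eq_volume μ, measure_inv, hF.measure_eq hr]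

theorem lattice_iff : HaarLattice μ Γ ↔ UN.IsLattice Γ := by
  let _ : MeasurableSpace (G ⧸ Γ) := borel _
  have : BorelSpace (G ⧸ Γ) := ⟨rfl⟩
  refine ⟨fun ⟨hd, hc⟩ => ⟨hd, ?_⟩, fun ⟨hd, ν, h0, h1, hν⟩ => ⟨hd, ?_⟩⟩
  · have := H515.countable_lat Γ
    have := count_op Γ
    have := inv_op μ Γ
    have hr := H515.isFundamentalDomain_op Γ μ
    have hmk := H515.mk_meas Γ
    have hu : ((μ.restrict (H515.fdom Γ)).map fun x : G => (x : G ⧸ Γ)) univ = μ (H515.fdom Γ) := by
      rw [map_apply hmk MeasurableSet.univ, preimage_univ, restrict_apply_univ]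
    refine ⟨(μ.restrict (H515.fdom Γ)).map fun x : G => (x : G ⧸ Γ), fun h => ?_, ?_, fun g s hs => ?_⟩
    · rw [h] at hu
      exact hr.measure_ne_zero (NeZero.ne μ) hu.symm
    · rw [hu, (wellDef μ Γ).2.2 _ (Or.inr hr)]
      exact hc
    · have hg : Measurable fun x : G ⧸ Γ => g • x := (continuous_const_smul g).measurable
      rw [map_apply hmk (hg hs), map_apply hmk hs, restrict_apply (hmk (hg hs)),
        restrict_apply (hmk hs)]
      have e1 : (fun x : G => (x : G ⧸ Γ)) ⁻¹' ((fun x => g • x) ⁻¹' s) ∩ H515.fdom Γ =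
          (fun x => g * x) ⁻¹' (((fun x : G => (x : G ⧸ Γ)) ⁻¹' s) ∩ g • H515.fdom Γ) := by
        ext x
        exact and_congr Iff.rfl (smul_mem_smul_set_iff (a := g)).symm
      rw [e1, measure_preimage_mul]
      refine (hr.smul_of_comm g).measure_set_eq hr (hmk hs) fun γ => ?_
      ext x
      change (((x * MulOpposite.unop γ.1 : G) : G ⧸ Γ) ∈ s) ↔ ((x : G ⧸ Γ) ∈ s)
      rw [QuotientGroup.mk_mul_of_mem x γ.2]
  · have hne : ν univ ≠ 0 := fun h => h0 (measure_univ_eq_zero.1 h)
    have : IsProbabilityMeasure ((ν univ)⁻¹ • ν) :=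
      ⟨by rw [Measure.smul_apply, smul_eq_mul, ENNReal.inv_mul_cancel hne h1.ne]⟩
    rw [← (wellDef μ Γ).2.2 _ (Or.inr (H515.isFundamentalDomain_op Γ μ))]
    refine H515.fdom_lt_top Γ ((ν univ)⁻¹ • ν) (fun g => ?_) μ
    have hg : Measurable fun x : G ⧸ Γ => g • x := (continuous_const_smul g).measurable
    ext s hs
    rw [map_apply hg hs, Measure.smul_apply, Measure.smul_apply, hν g s hs]

end grp

/-- The bridge for the groups of the problem. -/
theorem bridge (I : Type) [Fintype I] (G : I → Type) [∀ i, Group (G i)]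
    [∀ i, TopologicalSpace (G i)] (h : ∀ i, SimplePts (G i) ∧ UN.HasTC (G i))
    [MeasurableSpace (∀ i, G i)] [BorelSpace (∀ i, G i)] :
    IsTopologicalGroup (∀ i, G i) ∧ LocallyCompactSpace (∀ i, G i) ∧
    (∃ μ : Measure (∀ i, G i), μ.IsHaarMeasure) ∧
    ∀ μ : Measure (∀ i, G i), μ.IsHaarMeasure → μ.IsMulRightInvariant ∧
      ∀ Γ : Subgroup (∀ i, G i), (DiscreteTopology Γ → WellDef μ Γ) ∧
        (HaarLattice μ Γ ↔ UN.IsLattice Γ) := by
  classical
  have h1 := fun i => (top_of_pts (h i).1).1
  have h2 := fun i => (top_of_pts (h i).1).2.1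
  have h3 := fun i => (top_of_pts (h i).1).2.2.1
  have h4 := fun i => (top_of_pts (h i).1).2.2.2
  refine ⟨inferInstance, inferInstance, ⟨haar, inferInstance⟩, fun μ hμ => ?_⟩
  have hm : (modularCharacter : (∀ i, G i) →* ℝ≥0) = 1 := MonoidHom.pi_ext fun i x => by
    have pos : ∀ g : ∀ i, G i, (0 : ℝ) < modularCharacterFun g := fun g => modularCharacterFun_pos g
    have := hom_zero (h i).2 (fun x => Real.log (modularCharacterFun (Pi.mulSingle i x : ∀ i, G i)))
      ((cont_mod.comp (continuous_mulSingle i)).log fun x => (pos _).ne')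
      (fun a b => by
        rw [Pi.mulSingle_mul, modularCharacterFun_map_mul, NNReal.coe_mul,
          Real.log_mul (pos _).ne' (pos _).ne']) x
    exact NNReal.coe_injective (Real.eq_one_of_pos_of_log_eq_zero (pos _) this)
  have hr : μ.IsMulRightInvariant :=
    H515.rightInv_of_modChar μ fun g => DFunLike.congr_fun hm g
  exact ⟨hr, fun Γ => ⟨fun _ => wellDef μ Γ, lattice_iff μ Γ⟩⟩

end Vale.Agent.P092L63
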