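import Vale.Agent.P092L63.Weil
import Vale.Agent.P092L63.Defs2
import Mathlib.NumberTheory.Ostrowski
import Mathlib.Analysis.Normed.Algebra.GelfandMazur
import Mathlib.Analysis.Normed.Field.Ultra
import Mathlib.Analysis.Normed.Field.ProperSpace
import Mathlib.Analysis.Normed.Unbundled.IsPowMulFaithful
import Mathlib.Topology.Algebra.UniformRing

/-!
P092: a non-discrete locally compact field is the field of real numbers, the field of complex
numbers or non-archimedean.
-/

set_option linter.all false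

open Set Topology Filter

namespace Vale.Agent.P092L63

open Vale.Agent.P092 Vale.Agent.P092GV

theorem arch (k : Type) [NontriviallyNormedField k] [CompleteSpace k] [CharZero k]
    (h : ∀ q : ℚ, ‖(q : k)‖ = |(q : ℝ)|) : UN.LocK k := by
  have hu : UniformContinuous (Rat.castHom k) := (Isometry.of_dist_eq fun x y => by
    rw [dist_eq_norm, ← map_sub, Rat.dist_eq, ← Rat.cast_sub]
    exact h _).uniformContinuous
  have ue : IsUniformInducing (Rat.castHom ℝ) := Rat.isUniformEmbedding_coe_real.isUniformInducing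
  have dr : DenseRange (Rat.castHom ℝ) := Rat.denseRange_cast
  obtain ⟨φ, hφ⟩ : ∃ φ : ℝ →+* k, Continuous φ :=
    ⟨IsDenseInducing.extendRingHom ue dr hu, (uniformContinuous_uniformly_extend ue dr hu).continuous⟩
  have hn : ∀ r, ‖φ r‖ = ‖r‖ := fun r => dr.induction_on r
    (isClosed_eq hφ.norm continuous_norm) fun q => by
      rw [Rat.coe_castHom, map_ratCast, h, Real.norm_eq_abs]
  let _ := φ.toAlgebra
  let _ : NormedAlgebra ℝ k := ⟨fun r x => by
    rw [Algebra.smul_def, norm_mul]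
    exact (congrArg (· * ‖x‖) (hn r)).le⟩
  have iso : ∀ (F : Type) [NormedField F] [NormedAlgebra ℝ F] [FiniteDimensional ℝ F]
      (e : k ≃ₐ[ℝ] F) (x : k), ‖e x‖ = ‖x‖ := fun F _ _ _ e x => by
    have := e.symm.toLinearEquiv.finiteDimensional
    obtain ⟨a, ha, h1⟩ := e.toLinearEquiv.toContinuousLinearEquiv.toContinuousLinearMap.bound
    obtain ⟨b, hb, h2⟩ := e.symm.toLinearEquiv.toContinuousLinearEquiv.toContinuousLinearMap.bound
    refine le_antisymm (contraction_of_isPowMul (f := (e : k →+* F)) (fun y n _ => norm_pow y n)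
      ⟨a, ha, h1⟩ x) ?_
    have := contraction_of_isPowMul (f := (e.symm : F →+* k)) (fun y n _ => norm_pow y n)
      ⟨b, hb, h2⟩ (e x)
    simpa using this
  rcases NormedAlgebra.Real.nonempty_algEquiv_or k with ⟨⟨e⟩⟩ | ⟨⟨e⟩⟩
  · exact .real e.toRingEquiv (iso ℝ e)
  · exact .cplx e.toRingEquiv (iso ℂ e)

theorem dich {k : Type} [Field k] [TopologicalSpace k] (w : k →*₀ ℝ) (h0 : ∀ x, 0 ≤ w x)
    (ht : ∀ x y, w (x + y) ≤ w x + w y)
    (hb : (𝓝 (0 : k)).HasBasis (fun ε : ℝ => 0 < ε) fun ε => {x | w x < ε}) :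
    ∃ v : AbsoluteValue k ℝ, ((𝓝 (0 : k)).HasBasis (fun ε : ℝ => 0 < ε) fun ε => {x | v x < ε}) ∧
      ((∀ n : ℕ, v n ≤ 1) ∨ ∃ _ : CharZero k, ∀ q : ℚ, v q = |(q : ℝ)|) := by
  by_cases hn : ∀ n : ℕ, w n ≤ 1
  · exact ⟨absV w h0 ht, hb, Or.inl hn⟩
  have hc : CharZero k := by
    obtain ⟨p, hp⟩ := CharP.exists k
    rcases CharP.char_is_prime_or_zero k p with h | rfl
    · refine absurd (fun n => ?_) hn
      have := Fact.mk h
      have e : (n : k) ^ p = n := map_natCast (frobenius k p) n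
      have e' : w n ^ p = w n := by rw [← map_pow, e]
      by_contra h1
      exact (lt_self_pow₀ (not_le.1 h1) h.one_lt).ne' e'
    · exact CharP.charP_to_charZero k
  obtain ⟨c, hc0, e⟩ := AbsoluteValue.isEquiv_iff_exists_rpow_eq.1
    (Rat.AbsoluteValue.equiv_real_of_unbounded
      (f := (absV w h0 ht).comp (Rat.castHom k).injective) fun h => hn fun n => by
        have : w (Rat.castHom k n) ≤ 1 := h n
        rwa [map_natCast] at this)
  have e' : ∀ q : ℚ, pw w h0 hc0 q = |(q : ℝ)| := fun q =>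
    (congrFun e q).trans ((Rat.AbsoluteValue.real_eq_abs q).trans (Rat.cast_abs q))
  have h2 : ∀ x y, w (x + y) ≤ 2 * max (w x) (w y) := fun x y => by
    linarith [ht x y, le_max_left (w x) (w y), le_max_right (w x) (w y)]
  have h0' : ∀ x, 0 ≤ pw w h0 hc0 x := fun x => Real.rpow_nonneg (h0 x) _
  refine ⟨absV _ h0' (tri _ h0' (by positivity) (pw_add w h0 two_pos h2 hc0) one_pos fun n => ?_),
    pw_basis w h0 hc0 hb, Or.inr ⟨hc, e'⟩⟩
  have := e' n
  rw [Rat.cast_natCast, Rat.cast_natCast, Nat.abs_cast] at this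
  rw [this, one_mul]

/-- **Classification of local fields**, in the form needed. -/
theorem exists_loc (k : Type) [F : Field k] [T : TopologicalSpace k] [IsTopologicalDivisionRing k]
    [T2Space k] [LocallyCompactSpace k] (hd : ¬ DiscreteTopology k) :
    ∃ N : NontriviallyNormedField k, N.toField = F ∧ N.toUniformSpace.toTopologicalSpace = T ∧
      @ProperSpace k N.toPseudoMetricSpace ∧ @UN.LocK k N := by
  have hne : (𝓝[≠] (0 : k)).NeBot := by
    rw [discreteTopology_iff_isOpen_singleton_zero, isOpen_singleton_iff_punctured_nhds] at hd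
    exact ⟨hd⟩
  obtain ⟨w, h0, ht, hb⟩ := exists_abs (k := k)
  obtain ⟨v, hv, h⟩ := dich w h0 ht hb
  have hv1 : ∀ᶠ x in 𝓝 (0 : k), v x < 1 := hv.mem_of_mem one_pos
  obtain ⟨x, hx1, hx0⟩ := ((hv1.filter_mono nhdsWithin_le_nhds).and
    (self_mem_nhdsWithin (s := {0}ᶜ))).exists
  obtain ⟨N, h1, h2, h3⟩ : ∃ N : NontriviallyNormedField k, N.toField = F ∧
      N.toUniformSpace.toTopologicalSpace = T ∧ ∀ x, N.norm x = v x := by
    have hT : @IsTopologicalAddGroup k T _ := inferInstance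
    refine ⟨@NontriviallyNormedField.ofNormNeOne k v.toNormedField ⟨x, hx0, hx1.ne⟩, rfl, ?_,
      fun _ => rfl⟩
    let N := v.toNormedField
    refine IsTopologicalAddGroup.ext SeminormedAddCommGroup.toIsTopologicalAddGroup hT ?_
    refine (Metric.nhds_basis_ball (x := (0 : k))).eq_of_same_basis ?_
    rw [show Metric.ball (0 : k) = fun ε => {x | v x < ε} from funext fun ε => ball_zero_eq ε]
    exact hv
  refine ⟨N, h1, h2, ?_⟩
  subst h1 h2
  have hp := ProperSpace.of_nontriviallyNormedField_of_weaklyLocallyCompactSpace k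
  refine ⟨hp, ?_⟩
  rcases h with h | ⟨_, h⟩
  · exact .ultra (IsUltrametricDist.isUltrametricDist_of_forall_norm_natCast_le_one
      fun n => (h3 n).trans_le (h n))
  · exact arch k fun q => (h3 q).trans (h q)

theorem pts_iff {G : Type} [Group G] [TopologicalSpace G] : LocalPts G ↔ SimplePts G := by
  refine ⟨fun h => ?_, fun h => ?_⟩
  · obtain ⟨k, hd, K, n, 𝔾, b, e⟩ := h
    obtain ⟨N, rfl, rfl, h1, h2⟩ := exists_loc k hd
    exact ⟨k, h2, K, n, 𝔾, b, e⟩
  · obtain ⟨k, -, K, n, 𝔾, b, e⟩ := h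
    exact ⟨k, fun hd => (NormedField.nhdsNE_neBot (0 : k)).ne
      ((isOpen_singleton_iff_punctured_nhds _).1 (isOpen_discrete _)), K, n, 𝔾, b, e⟩

end Vale.Agent.P092L63
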