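import Mathlib.MeasureTheory.Measure.Haar.DistribChar
import Mathlib.Analysis.SpecialFunctions.Log.Base
import Mathlib.Analysis.SpecificLimits.Normed
import Mathlib.Topology.Algebra.Field

/-!
P092: a non-discrete locally compact field has an absolute value which defines its topology (the
module of the additive Haar measure, following Weil and Artin).
-/

set_option linter.all false

open MeasureTheory MeasureTheory.Measure Set Topology Filter
open scoped ENNReal NNReal Pointwise

namespace Vale.Agent.P092L63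

theorem le_of_pow {a b A C : ℝ} (hb : 0 ≤ b) (hA : 0 < A) (hC : 0 < C)
    (h : ∀ r : ℕ, a ^ (2 ^ r - 1) ≤ C ^ r * (A * b ^ (2 ^ r - 1))) : a ≤ b := by
  by_contra hab
  push Not at hab
  rcases hb.eq_or_lt with rfl | hb
  · have := h 1
    simp at this
    linarith
  have ha := hb.trans hab
  have key : ∀ r : ℕ, (1 - (1 / 2 : ℝ) ^ r) * (Real.log a - Real.log b) ≤
      r * (1 / 2 : ℝ) ^ r * Real.log C + (1 / 2 : ℝ) ^ r * Real.log A := fun r => by
    have h1 := Real.log_le_log (by positivity) (h r)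
    rw [Real.log_mul (by positivity) (by positivity), Real.log_mul (by positivity) (by positivity),
      Real.log_pow, Real.log_pow, Real.log_pow, Nat.cast_sub Nat.one_le_two_pow] at h1
    push_cast at h1
    have h2 : (2 : ℝ) ^ r * (1 / 2) ^ r = 1 := by rw [← mul_pow]; simp
    have h3 := mul_le_mul_of_nonneg_left h1 (by positivity : 0 ≤ (1 / 2 : ℝ) ^ r)
    have e : ∀ x : ℝ, (1 / 2 : ℝ) ^ r * ((2 ^ r - 1) * x) = (1 - (1 / 2) ^ r) * x := fun x => by
      linear_combination x * h2
    rw [mul_add, mul_add, e, e] at h3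
    linarith
  have t1 := tendsto_pow_atTop_nhds_zero_of_lt_one (r := (1 / 2 : ℝ)) (by norm_num) (by norm_num)
  have t2 := tendsto_self_mul_const_pow_of_lt_one (r := (1 / 2 : ℝ)) (by norm_num) (by norm_num)
  have := le_of_tendsto_of_tendsto' ((t1.const_sub 1).mul_const (Real.log a - Real.log b))
    ((t2.mul_const (Real.log C)).add (t1.mul_const (Real.log A))) key
  have := Real.log_lt_log hb hab
  linarith

section alg

variable {k : Type} [Field k] (w : k →*₀ ℝ) (h0 : ∀ x, 0 ≤ w x) {C : ℝ} (hC0 : 0 < C)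
  (hC : ∀ x y, w (x + y) ≤ C * max (w x) (w y))

include hC0 hC in
theorem sum_le {ι : Type} (f : ι → k) {B : ℝ} (hB : 0 ≤ B) : ∀ (r : ℕ) (s : Finset ι),
    s.card ≤ 2 ^ r → (∀ i ∈ s, w (f i) ≤ B) → w (∑ i ∈ s, f i) ≤ C ^ r * B
  | 0, s, hs, h => by
    rcases s.eq_empty_or_nonempty with rfl | ⟨i, hi⟩
    · simpa using hB
    · obtain rfl : s = {i} := Finset.eq_singleton_iff_unique_mem.2
        ⟨hi, fun j hj => Finset.card_le_one.1 hs j hj i hi⟩
      simpa using h i hi
  | r + 1, s, hs, h => by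
    classical
    obtain ⟨t, ht, hc⟩ := Finset.exists_subset_card_eq (min_le_left s.card (2 ^ r))
    have h1 := sum_le f hB r (s \ t) (by rw [Finset.card_sdiff_of_subset ht]; omega)
      fun i hi => h i (Finset.sdiff_subset hi)
    have h2 := sum_le f hB r t (by omega) fun i hi => h i (ht hi)
    rw [← Finset.sum_sdiff ht, pow_succ', mul_assoc]
    exact (hC _ _).trans (mul_le_mul_of_nonneg_left (max_le h1 h2) hC0.le)

include h0 hC0 hC in
/-- Artin's lemma. -/
theorem tri {A : ℝ} (hA0 : 0 < A) (hA : ∀ n : ℕ, w n ≤ A * n) (x y : k) :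
    w (x + y) ≤ w x + w y := by
  have hx := h0 x
  have hy := h0 y
  refine le_of_pow (add_nonneg hx hy) hA0 hC0 fun r => ?_
  rw [← map_pow, add_pow]
  refine sum_le w hC0 hC _ (by positivity) r _ (by
    rw [Finset.card_range]
    have := Nat.one_le_two_pow (n := r)
    omega) fun i hi => ?_
  rw [map_mul, map_mul, map_pow, map_pow, add_pow (w x)]
  refine (mul_le_mul_of_nonneg_left (hA _) (by positivity)).trans ?_
  rw [mul_left_comm]
  exact mul_le_mul_of_nonneg_left (Finset.single_le_sum
    (f := fun i => w x ^ i * w y ^ (2 ^ r - 1 - i) * ((2 ^ r - 1).choose i : ℝ))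
    (fun j _ => by positivity) hi) hA0.le

/-- The power `w ^ s`. -/
noncomputable def pw {s : ℝ} (hs : 0 < s) : k →*₀ ℝ where
  toFun x := w x ^ s
  map_zero' := by rw [map_zero, Real.zero_rpow hs.ne']
  map_one' := by rw [map_one, Real.one_rpow]
  map_mul' x y := by rw [map_mul, Real.mul_rpow (h0 x) (h0 y)]

include hC0 hC in
theorem pw_add {s : ℝ} (hs : 0 < s) (x y : k) :
    pw w h0 hs (x + y) ≤ C ^ s * max (pw w h0 hs x) (pw w h0 hs y) := by
  refine (Real.rpow_le_rpow (h0 _) (hC x y) hs.le).trans ?_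
  rw [Real.mul_rpow hC0.le (le_max_of_le_left (h0 x))]
  refine mul_le_mul_of_nonneg_left ?_ (by positivity)
  rcases le_total (w x) (w y) with h | h
  · rw [max_eq_right h]
    exact le_max_right _ _
  · rw [max_eq_left h]
    exact le_max_left _ _

theorem pw_basis [TopologicalSpace k] {s : ℝ} (hs : 0 < s)
    (hb : (𝓝 (0 : k)).HasBasis (fun ε : ℝ => 0 < ε) fun ε => {x | w x < ε}) :
    (𝓝 (0 : k)).HasBasis (fun ε : ℝ => 0 < ε) fun ε => {x | pw w h0 hs x < ε} :=
  hb.to_hasBasis
    (fun ε hε => ⟨ε ^ s, by positivity, fun x hx => (Real.rpow_lt_rpow_iff (h0 x) hε.le hs).1 hx⟩)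
    fun ε hε => ⟨ε ^ s⁻¹, by positivity, fun x hx => (Real.lt_rpow_inv_iff_of_pos (h0 x) hε.le hs).1 hx⟩

include h0 in
/-- The absolute value given by a multiplicative function with the triangle inequality. -/
noncomputable def absV (ht : ∀ x y, w (x + y) ≤ w x + w y) : AbsoluteValue k ℝ where
  toFun := w
  map_mul' := map_mul w
  nonneg' := h0
  eq_zero' _ := map_eq_zero w
  add_le' := ht

end alg

variable (k : Type) [Field k] [TopologicalSpace k] [IsTopologicalDivisionRing k] [T2Space k]
  [LocallyCompactSpace k]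

open Classical in
/-- The module. -/
noncomputable def md : k →*₀ ℝ where
  toFun a := if h : a = 0 then 0 else distribHaarChar k (Units.mk0 a h)
  map_zero' := dif_pos rfl
  map_one' := by
    rw [dif_neg one_ne_zero]
    simp
  map_mul' a b := by
    by_cases ha : a = 0
    · simp [ha]
    by_cases hb : b = 0
    · simp [hb]
    rw [dif_neg ha, dif_neg hb, dif_neg (mul_ne_zero ha hb), Units.mk0_mul, map_mul, NNReal.coe_mul]

variable {k}

theorem md_nonneg (a : k) : 0 ≤ md k a := by
  by_cases h : a = 0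
  · rw [h, map_zero]
  · have : md k a = distribHaarChar k (Units.mk0 a h) := dif_neg h
    rw [this]
    exact NNReal.coe_nonneg _

theorem md_pos {a : k} (h : a ≠ 0) : 0 < md k a :=
  (md_nonneg a).lt_of_ne' ((map_ne_zero _).2 h)

variable [(𝓝[≠] (0 : k)).NeBot]

theorem md_usc (a : k) {c : ℝ} (hc : md k a < c) : ∀ᶠ x in 𝓝 a, md k x < c := by
  borelize k
  obtain ⟨W⟩ : Nonempty (TopologicalSpace.PositiveCompacts k) := inferInstance
  have h1 : addHaar (W : Set k) ≠ 0 := (measure_pos_of_nonempty_interior _ W.interior_nonempty).ne'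
  have h2 : addHaar (W : Set k) ≠ ⊤ := W.isCompact.measure_lt_top.ne
  have e : ∀ x : k, addHaar (x • (W : Set k)) = ENNReal.ofReal (md k x) * addHaar (W : Set k) := by
    intro x
    by_cases hx : x = 0
    · rw [hx, map_zero, ENNReal.ofReal_zero, zero_mul]
      exact measure_mono_null (zero_smul_set_subset _) (measure_singleton 0)
    · have : md k x = distribHaarChar k (Units.mk0 x hx) := dif_neg hx
      rw [this, ENNReal.ofReal_coe_nnreal, distribHaarChar_mul]
      rfl
  have hc0 : 0 < c := (md_nonneg a).trans_lt hc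
  obtain ⟨U, hU, hUo, hlt⟩ := Set.exists_isOpen_lt_of_lt (μ := addHaar) (a • (W : Set k))
    (ENNReal.ofReal c * addHaar (W : Set k))
    (by rw [e]; exact ENNReal.mul_lt_mul_left h1 h2 ((ENNReal.ofReal_lt_ofReal_iff hc0).2 hc))
  filter_upwards [W.isCompact.eventually_forall_of_forall_eventually (x₀ := a)
    (P := fun x y => x * y ∈ U) fun y hy => continuous_mul.continuousAt.eventually
      (hUo.mem_nhds (hU (smul_mem_smul_set hy)))] with x hx
  have := (measure_mono (show x • (W : Set k) ⊆ U from by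
    rintro _ ⟨y, hy, rfl⟩
    exact hx y hy)).trans_lt hlt
  rw [e] at this
  exact (ENNReal.ofReal_lt_ofReal_iff hc0).1 (lt_of_mul_lt_mul_right' this)

theorem md_cont : Continuous (md k) := by
  refine continuous_iff_continuousAt.2 fun a => tendsto_order.2 ⟨fun c hc => ?_, fun c => md_usc a⟩
  by_cases ha : a = 0
  · rw [ha, map_zero] at hc
    exact .of_forall fun x => hc.trans_le (md_nonneg x)
  rcases le_or_gt c 0 with h | h
  · filter_upwards [isOpen_ne.mem_nhds ha] with x hx using h.trans_lt (md_pos hx)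
  · filter_upwards [isOpen_ne.mem_nhds ha, (continuousAt_inv₀ ha).eventually
      (md_usc a⁻¹ (c := c⁻¹) (by rw [map_inv₀]; exact inv_strictAnti₀ h hc))] with x hx hx'
    rw [map_inv₀] at hx'
    exact (inv_lt_inv₀ (md_pos hx) h).1 hx'

theorem md_cpt (M : ℝ) : IsCompact {x | md k x ≤ M} := by
  obtain ⟨V, hV, hV0⟩ := exists_compact_mem_nhds (0 : k)
  have e1 : ∀ᶠ x in 𝓝 (0 : k), ∀ y ∈ V, x * y ∈ V :=
    hV.eventually_forall_of_forall_eventually fun y _ => continuous_mul.continuousAt.eventually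
      (show V ∈ 𝓝 ((0 : k) * y) by rwa [zero_mul])
  obtain ⟨r, ⟨⟨hr, hrV⟩, hr1⟩, hr0⟩ := ((((e1.and hV0).and
    (md_usc (0 : k) (c := 1) (by simp))).filter_mono nhdsWithin_le_nhds).and
    (self_mem_nhdsWithin (s := {0}ᶜ))).exists
  have hr0 : r ≠ 0 := hr0
  have tp := tendsto_pow_atTop_nhds_zero_of_lt_one (md_nonneg r) hr1
  have t0 : Tendsto (fun n : ℕ => r ^ n) atTop (𝓝 0) := by
    refine hV.tendsto_nhds_of_unique_mapClusterPt (eventually_atTop.2 ⟨1, fun n hn => ?_⟩)
      fun y _ hy => (map_eq_zero (md k)).1 ?_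
    · induction n, hn using Nat.le_induction with
      | base => rwa [pow_one]
      | succ n _ ih => rw [pow_succ']; exact hr _ ih
    · refine eq_of_nhds_neBot ((hy.continuousAt_comp md_cont.continuousAt).clusterPt.mono ?_)
      simpa only [Function.comp_def, map_pow] using! tp
  obtain ⟨α, hα, hX⟩ := (hV.diff (isOpen_interior (s := r • V))).exists_forall_le'
    md_cont.continuousOn (a := 0) fun b hb => md_pos fun h => hb.2 (by
      rw [h]
      exact mem_interior_iff_mem_nhds.2 ((set_smul_mem_nhds_zero_iff hr0).2 hV0))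
  obtain ⟨N, hN⟩ := eventually_atTop.1 ((tp.mul_const M).eventually
    (gt_mem_nhds (by rwa [zero_mul])))
  refine (hV.image (continuous_const_mul (r ^ N)⁻¹)).of_isClosed_subset
    (isClosed_le md_cont continuous_const) fun a ha => ?_
  have key : ∀ n, N ≤ n → r ^ n * a ∈ V → r ^ N * a ∈ V := fun n hn => by
    induction n, hn using Nat.le_induction with
    | base => exact id
    | succ n hn ih =>
      refine fun h => ih (by_contra fun h' => ?_)
      have h1 := hX _ ⟨h, fun h2 => h' (by
        have := interior_subset h2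
        rwa [pow_succ', mul_assoc, ← smul_eq_mul r, smul_mem_smul_set_iff₀ hr0] at this)⟩
      rw [map_mul, map_pow] at h1
      exact (h1.trans (mul_le_mul_of_nonneg_left ha (pow_nonneg (md_nonneg r) _))).not_gt
        (hN _ (by omega))
  obtain ⟨n, h1, h2⟩ := ((eventually_ge_atTop N).and ((t0.mul_const a).eventually
    (show V ∈ 𝓝 ((0 : k) * a) by rwa [zero_mul]))).exists
  exact ⟨_, key n h1 h2, inv_mul_cancel_left₀ (pow_ne_zero N hr0) a⟩

theorem md_basis : (𝓝 (0 : k)).HasBasis (fun ε : ℝ => 0 < ε) fun ε => {x | md k x < ε} := by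
  refine ⟨fun U => ⟨fun hU => ?_, fun ⟨ε, hε, h⟩ =>
    mem_of_superset (md_usc (0 : k) (by rwa [map_zero])) h⟩⟩
  obtain ⟨β, hβ, h⟩ := ((md_cpt 1).diff (isOpen_interior (s := U))).exists_forall_le'
    md_cont.continuousOn (a := 0) fun b hb => md_pos fun h => hb.2 (by
      rw [h]
      exact mem_interior_iff_mem_nhds.2 hU)
  refine ⟨min β 1, lt_min hβ one_pos, fun x hx => interior_subset (by_contra fun h' => ?_)⟩
  have hx : md k x < min β 1 := hx
  exact (h x ⟨(hx.trans_le (min_le_right _ _)).le, h'⟩).not_gt (hx.trans_le (min_le_left _ _))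

theorem md_add : ∃ C : ℝ, 1 < C ∧ ∀ x y : k, md k (x + y) ≤ C * max (md k x) (md k y) := by
  obtain ⟨B, hB⟩ := (md_cpt (k := k) 1).exists_bound_of_continuousOn
    (md_cont.comp (continuous_add_right (1 : k))).continuousOn
  have key : ∀ x y : k, md k x ≤ md k y → md k (x + y) ≤ max B 2 * md k y := fun x y h => by
    by_cases hy : y = 0
    · have hx : x = 0 := by_contra fun hx => (md_pos hx).not_ge (by rwa [hy, map_zero] at h)
      simp [hx, hy]
    have h1 := hB (x / y) (by
      rw [mem_setOf_eq, map_div₀]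
      exact (div_le_one (md_pos hy)).2 h)
    rw [show x + y = (x / y + 1) * y by field_simp, map_mul]
    exact mul_le_mul_of_nonneg_right (((le_abs_self _).trans h1).trans (le_max_left _ _))
      (md_nonneg y)
  refine ⟨max B 2, one_lt_two.trans_le (le_max_right _ _), fun x y => ?_⟩
  rcases le_total (md k x) (md k y) with h | h
  · rw [max_eq_right h]
    exact key x y h
  · rw [max_eq_left h, add_comm]
    exact key y x h

/-- An absolute value defines the topology. -/
theorem exists_abs : ∃ w : k →*₀ ℝ, (∀ x, 0 ≤ w x) ∧ (∀ x y, w (x + y) ≤ w x + w y) ∧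
    (𝓝 (0 : k)).HasBasis (fun ε : ℝ => 0 < ε) fun ε => {x | w x < ε} := by
  obtain ⟨C, hC1, hC⟩ := md_add (k := k)
  have hC0 : 0 < C := one_pos.trans hC1
  have hs : 0 < Real.logb C 2 := Real.logb_pos hC1 one_lt_two
  have h0 : ∀ x, 0 ≤ pw (md k) md_nonneg hs x := fun x => Real.rpow_nonneg (md_nonneg x) _
  have h2 := pw_add (md k) md_nonneg hC0 hC hs
  rw [Real.rpow_logb hC0 hC1.ne' two_pos] at h2
  refine ⟨_, h0, tri _ h0 two_pos h2 two_pos fun n => ?_, pw_basis _ _ hs md_basis⟩
  rcases Nat.eq_zero_or_pos n with rfl | hn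
  · simp
  have h3 := sum_le _ two_pos h2 (fun _ : ℕ => (1 : k)) zero_le_one (Nat.clog 2 n) (Finset.range n)
    (by rw [Finset.card_range]; exact Nat.le_pow_clog one_lt_two n) fun _ _ => (map_one _).le
  rw [Finset.sum_const, Finset.card_range, nsmul_one, mul_one] at h3
  refine h3.trans ?_
  norm_cast
  rcases (Nat.succ_le_of_lt hn).eq_or_lt with rfl | h1
  · simp
  · have h4 := Nat.pow_pred_clog_lt_self one_lt_two h1
    have h5 := Nat.clog_pos one_lt_two h1
    rw [← Nat.succ_pred_eq_of_pos h5, pow_succ]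
    omega

end Vale.Agent.P092L63
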